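import Mathlib
import Vale.Agent.P171.Final

open MeasureTheory Filter Topology

namespace Vale.Agent.Results.P171.PhaseTransition

open Vale.Agent.P171

/-- A stable radial pair potential on `ℝ³` with a fast decaying tail and a phase transition. -/
theorem result :
    ∃ φ : ℝ → ℝ,
      Continuous φ ∧ IsStable φ ∧ IsTempered φ ∧
      (∃ C : ℝ, ∀ r, 0 < r → |φ r| ≤ C * r ^ ((-3 : ℝ) - 1 / 16)) ∧
      Integrable (fun x : R3 => φ ‖x‖) ∧
      ∃ β : ℝ, 0 < β ∧
        (∀ L N, IntegrableOn (fun x => Real.exp (-β * pairEnergy φ N x)) (cubeTuples L N)) ∧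
        (∀ z L : ℝ, 0 < z → Summable fun N => z ^ N * canonicalZ φ β L N) ∧
        ∃ Pi : ℝ → ℝ,
          (∀ z : ℝ, 0 < z →
            Tendsto (fun L : ℝ => Real.log (grandZ φ β z L) / L ^ 3) atTop (𝓝 (Pi z))) ∧
          ∃ z : ℝ, 0 < z ∧ ¬ DifferentiableAt ℝ Pi z := by
  obtain ⟨a, h, hw, μ, hμ⟩ := exists_kink
  refine ⟨pot Abig a, continuous_pot _ h.weights, h.isStable, h.isTempered, h.power_decay hw,
    h.integrable_pot, 1, one_pos, h.integrableOn_boltzmann, fun z L hz => h.summable_grand L hz,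
    fun z => pres Abig a (Real.log z), fun z hz => ?_, Real.exp μ, Real.exp_pos μ, fun hd => ?_⟩
  · simpa only [h.log_grandZ _ hz] using h.tendsto_lz (Real.log z)
  · refine hμ ?_
    have := hd.comp μ Real.differentiableAt_exp
    simpa only [Function.comp_def, Real.log_exp] using this

end Vale.Agent.Results.P171.PhaseTransition
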